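import Mathlib

/-!
# P038 (H769): the key inequality (787's proof, note 22727)
-/

namespace Vale.Agent.P038.H769

open Finset

variable {V : Type*} [Fintype V] [DecidableEq V]

/-- Layer cake with a Hall condition. -/
theorem layer (w : V → ℝ) (hw : ∀ v, 0 ≤ w v) (R : V → V → Prop) [DecidableRel R] (T : Finset V)
    (n : ℕ) : ∀ (S : Finset V) (f g : V → ℝ), S.card = n →
    (∀ a ∈ S, 0 ≤ f a) → (∀ z ∈ T, 0 ≤ g z) →
    (∀ S' : Finset V, S' ⊆ S → ∑ a ∈ S', w a ≤ ∑ z ∈ T.filter (fun z => ∃ a ∈ S', R a z), w z) →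
    (∀ a ∈ S, ∀ z ∈ T, R a z → f a ≤ g z) →
    ∑ a ∈ S, w a * f a ≤ ∑ z ∈ T.filter (fun z => ∃ a ∈ S, R a z), w z * g z := by
  induction n using Nat.strong_induction_on with
  | _ n ih =>
    intro S f g hn hf hg hH hfg
    rcases S.eq_empty_or_nonempty with rfl | hne
    · simp
    obtain ⟨a0, ha0, hmin⟩ := Finset.exists_min_image S f hne
    set m := f a0 with hm
    set S1 := S.filter (fun a => m < f a) with hS1
    have hS1S : S1 ⊆ S := Finset.filter_subset _ _
    have hlt : S1.card < n := by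
      rw [← hn]
      apply Finset.card_lt_card
      refine Finset.ssubset_iff_subset_ne.2 ⟨hS1S, fun he => ?_⟩
      have : a0 ∈ S1 := he ▸ ha0
      exact lt_irrefl _ (Finset.mem_filter.1 this).2
    set T0 := T.filter (fun z => ∃ a ∈ S, R a z) with hT0
    set T1 := T.filter (fun z => ∃ a ∈ S1, R a z) with hT1
    have hT10 : T1 ⊆ T0 := by
      intro z hz
      obtain ⟨h1, a, ha, haz⟩ := Finset.mem_filter.1 hz
      exact Finset.mem_filter.2 ⟨h1, a, hS1S ha, haz⟩
    have hgT0 : ∀ z ∈ T0, m ≤ g z := by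
      intro z hz
      obtain ⟨h1, a, ha, haz⟩ := Finset.mem_filter.1 hz
      exact (hmin a ha).trans (hfg a ha z h1 haz)
    have key := ih S1.card hlt S1 (fun a => f a - m) (fun z => max (g z - m) 0) rfl
      (fun a ha => sub_nonneg.2 (hmin a (hS1S ha))) (fun z _ => le_max_right _ _)
      (fun S' hS' => hH S' (hS'.trans hS1S))
      (fun a ha z hz haz => le_max_of_le_left (by linarith [hfg a (hS1S ha) z hz haz]))
    have e1 : ∑ a ∈ S, w a * f a = m * ∑ a ∈ S, w a + ∑ a ∈ S1, w a * (f a - m) := by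
      have h1 : ∑ a ∈ S1, w a * (f a - m) = ∑ a ∈ S, w a * (f a - m) := by
        apply Finset.sum_subset hS1S
        intro a ha ha1
        have h2 : ¬ m < f a := fun h => ha1 (Finset.mem_filter.2 ⟨ha, h⟩)
        have h3 := hmin a ha
        have : f a - m = 0 := by
          push Not at h2
          linarith
        rw [this, mul_zero]
      rw [h1, Finset.mul_sum, ← Finset.sum_add_distrib]
      exact Finset.sum_congr rfl fun a _ => by ring
    have e2 : ∑ z ∈ T1, w z * max (g z - m) 0 ≤ ∑ z ∈ T0, w z * (g z - m) := by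
      have h1 : ∑ z ∈ T1, w z * max (g z - m) 0 = ∑ z ∈ T1, w z * (g z - m) := by
        refine Finset.sum_congr rfl fun z hz => ?_
        rw [max_eq_left (sub_nonneg.2 (hgT0 z (hT10 hz)))]
      rw [h1]
      exact Finset.sum_le_sum_of_subset_of_nonneg hT10 fun z hz _ =>
        mul_nonneg (hw z) (sub_nonneg.2 (hgT0 z hz))
    have e3 : ∑ z ∈ T0, w z * (g z - m) = ∑ z ∈ T0, w z * g z - m * ∑ z ∈ T0, w z := by
      rw [Finset.mul_sum, ← Finset.sum_sub_distrib]
      exact Finset.sum_congr rfl fun a _ => by ring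
    have e4 := mul_le_mul_of_nonneg_left (hH S subset_rfl) (hf a0 ha0)
    rw [e1]
    linarith

/-- `kk h P Q = min { h Y : P ⊆ Y ⊆ Q }`. -/
noncomputable def kk (h : Finset V → ℝ) (P Q : Finset V) : ℝ :=
  if H : (Finset.univ.filter fun Y => P ⊆ Y ∧ Y ⊆ Q).Nonempty then
    (Finset.univ.filter fun Y => P ⊆ Y ∧ Y ⊆ Q).inf' H h else 0

theorem kk_le (h : Finset V → ℝ) {P Q Y : Finset V} (h1 : P ⊆ Y) (h2 : Y ⊆ Q) :
    kk h P Q ≤ h Y := by
  have hY : Y ∈ (Finset.univ.filter fun Y => P ⊆ Y ∧ Y ⊆ Q) :=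
    Finset.mem_filter.2 ⟨Finset.mem_univ _, h1, h2⟩
  have H : (Finset.univ.filter fun Y => P ⊆ Y ∧ Y ⊆ Q).Nonempty := ⟨Y, hY⟩
  rw [kk, dif_pos H]
  exact Finset.inf'_le _ hY

theorem kk_exists (h : Finset V → ℝ) {P Q : Finset V} (hPQ : P ⊆ Q) :
    ∃ Y, P ⊆ Y ∧ Y ⊆ Q ∧ kk h P Q = h Y := by
  have H : (Finset.univ.filter fun Y => P ⊆ Y ∧ Y ⊆ Q).Nonempty :=
    ⟨P, Finset.mem_filter.2 ⟨Finset.mem_univ _, subset_rfl, hPQ⟩⟩
  obtain ⟨Y, hY, hY'⟩ := Finset.exists_mem_eq_inf' H h
  have h2 := (Finset.mem_filter.1 hY).2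
  exact ⟨Y, h2.1, h2.2, by rw [kk, dif_pos H]; exact hY'⟩

theorem kk_eq (h : Finset V → ℝ) {P Q : Finset V} (hPQ : P ⊆ Q)
    (hmin : ∀ Y, P ⊆ Y → Y ⊆ Q → h P ≤ h Y) : kk h P Q = h P := by
  obtain ⟨Y, h1, h2, h3⟩ := kk_exists h hPQ
  exact le_antisymm (kk_le h subset_rfl hPQ) (h3 ▸ hmin Y h1 h2)

theorem kk_self (h : Finset V → ℝ) (Q : Finset V) : kk h Q Q = h Q :=
  kk_eq h subset_rfl fun Y h1 h2 => by rw [Finset.Subset.antisymm h1 h2]

theorem kk_mono (h : Finset V → ℝ) {P P' Q : Finset V} (hP : P ⊆ P') (hPQ : P' ⊆ Q) :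
    kk h P Q ≤ kk h P' Q := by
  obtain ⟨Y, h1, h2, h3⟩ := kk_exists h hPQ
  rw [h3]
  exact kk_le h (hP.trans h1) h2

/-- The key inequality. -/
theorem key (h : Finset V → ℝ) (hsub : ∀ A B, h (A ∪ B) + h (A ∩ B) ≤ h A + h B)
    (w : V → ℝ) (hw : ∀ v, 0 ≤ w v) (R : V → V → Prop) (hR : ∀ z, R z z)
    (B U m M : V → Finset V) (hBU : ∀ a, B a ⊆ U a)
    (hm : ∀ z b, b ∈ m z ↔ ∀ a, R a z → b ∈ B a)
    (hM : ∀ z b, b ∈ M z ↔ ∀ a, R a z → b ∈ U a)
    (hr : ∀ a Y, B a ⊆ Y → Y ⊆ U a → h (B a) ≤ h Y)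
    (hc : ∀ b, ∀ S : Finset V, (∀ a ∈ S, b ∈ U a ∧ b ∉ B a) → ∀ T : Finset V,
      (∀ z, z ∈ T ↔ b ∈ M z ∧ ∃ a ∈ S, R a z) → ∑ a ∈ S, w a ≤ ∑ z ∈ T, w z) :
    ∑ a, w a * (h (U a) - h (B a)) ≤ ∑ z, w z * (h (M z) - h (m z)) := by
  classical
  have hmM : ∀ z, m z ⊆ M z := fun z b hb =>
    (hM z b).2 fun a ha => hBU a ((hm z b).1 hb a ha)
  have hmB : ∀ a z, R a z → m z ⊆ B a := fun a z haz b hb => (hm z b).1 hb a haz
  have hMU : ∀ a z, R a z → M z ⊆ U a := fun a z haz b hb => (hM z b).1 hb a haz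
  -- base for `m`
  have hbase : ∀ z Y, m z ⊆ Y → Y ⊆ M z → h (m z) ≤ h Y := by
    intro z Y h1 h2
    have hA : ∀ A : Finset V, (∀ a ∈ A, R a z) →
        h (Y.filter fun b => ∀ a ∈ A, b ∈ B a) ≤ h Y := by
      intro A
      induction A using Finset.induction_on with
      | empty => intro _; simp
      | insert a A _ ihA =>
        intro hA
        have ih' := ihA fun x hx => hA x (Finset.mem_insert_of_mem hx)
        set Y' := Y.filter fun b => ∀ a ∈ A, b ∈ B a with hY'
        have e1 : (Y.filter fun b => ∀ x ∈ insert a A, b ∈ B x) = Y' ∩ B a := by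
          ext b
          simp only [Finset.mem_filter, Finset.mem_inter, Finset.forall_mem_insert, hY']
          tauto
        rw [e1]
        have h3 := hsub Y' (B a)
        have haz := hA a (Finset.mem_insert_self _ _)
        have h4 := hr a (Y' ∪ B a) Finset.subset_union_right
          (Finset.union_subset (((Finset.filter_subset _ _).trans h2).trans (hMU a z haz))
            (hBU a))
        linarith
    have h3 := hA (Finset.univ.filter fun a => R a z) (fun a ha => (Finset.mem_filter.1 ha).2)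
    have e : (Y.filter fun b => ∀ a ∈ Finset.univ.filter (fun a => R a z), b ∈ B a) = m z := by
      ext b
      simp only [Finset.mem_filter, Finset.mem_univ, true_and]
      rw [hm]
      exact ⟨fun hb => hb.2, fun hb => ⟨h1 ((hm z b).2 hb), hb⟩⟩
    rw [e] at h3
    exact h3
  have hadm1 : ∀ (T : Finset V) a, B a ∪ (T ∩ U a) ⊆ U a := fun T a =>
    Finset.union_subset (hBU a) Finset.inter_subset_right
  have hadm2 : ∀ (T : Finset V) z, m z ∪ (T ∩ M z) ⊆ M z := fun T z =>
    Finset.union_subset (hmM z) Finset.inter_subset_right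
  have main : ∀ T : Finset V,
      ∑ a, w a * (kk h (B a ∪ (T ∩ U a)) (U a) - h (B a)) ≤
        ∑ z, w z * (kk h (m z ∪ (T ∩ M z)) (M z) - h (m z)) := by
    intro T
    induction T using Finset.induction_on with
    | empty =>
      refine le_of_eq ?_
      rw [Finset.sum_eq_zero, Finset.sum_eq_zero]
      · intro z _
        rw [Finset.empty_inter, Finset.union_empty, kk_eq h (hmM z) (hbase z), sub_self, mul_zero]
      · intro a _
        rw [Finset.empty_inter, Finset.union_empty, kk_eq h (hBU a) (hr a), sub_self, mul_zero]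
    | insert b T _ ihT =>
      set al : V → ℝ := fun a => kk h (B a ∪ (insert b T ∩ U a)) (U a) -
        kk h (B a ∪ (T ∩ U a)) (U a) with hal
      set ga : V → ℝ := fun z => kk h (m z ∪ (insert b T ∩ M z)) (M z) -
        kk h (m z ∪ (T ∩ M z)) (M z) with hga
      have hal0 : ∀ a, 0 ≤ al a := fun a => sub_nonneg.2 (kk_mono h
        (Finset.union_subset_union subset_rfl
          (Finset.inter_subset_inter (Finset.subset_insert _ _) subset_rfl)) (hadm1 _ a))
      have hga0 : ∀ z, 0 ≤ ga z := fun z => sub_nonneg.2 (kk_mono h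
        (Finset.union_subset_union subset_rfl
          (Finset.inter_subset_inter (Finset.subset_insert _ _) subset_rfl)) (hadm2 _ z))
      have hcmp : ∀ a z, R a z → b ∈ M z → al a ≤ ga z := by
        intro a z haz hbz
        obtain ⟨Y, hY1, hY2, hY3⟩ := kk_exists h (hadm2 (insert b T) z)
        obtain ⟨Y', hY1', hY2', hY3'⟩ := kk_exists h (hadm1 T a)
        have hbY : b ∈ Y := hY1 (Finset.mem_union_right _
          (Finset.mem_inter.2 ⟨Finset.mem_insert_self _ _, hbz⟩))
        have h1 : kk h (B a ∪ (insert b T ∩ U a)) (U a) ≤ h (Y ∪ Y') := by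
          refine kk_le h ?_ (Finset.union_subset (hY2.trans (hMU a z haz)) hY2')
          intro x hx
          rcases Finset.mem_union.1 hx with hx | hx
          · exact Finset.mem_union_right _ (hY1' (Finset.mem_union_left _ hx))
          · obtain ⟨hx1, hx2⟩ := Finset.mem_inter.1 hx
            rcases Finset.mem_insert.1 hx1 with rfl | hx1
            · exact Finset.mem_union_left _ hbY
            · exact Finset.mem_union_right _ (hY1' (Finset.mem_union_right _
                (Finset.mem_inter.2 ⟨hx1, hx2⟩)))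
        have h2 : kk h (m z ∪ (T ∩ M z)) (M z) ≤ h (Y ∩ Y') := by
          refine kk_le h ?_ (Finset.inter_subset_left.trans hY2)
          intro x hx
          rcases Finset.mem_union.1 hx with hx | hx
          · exact Finset.mem_inter.2 ⟨hY1 (Finset.mem_union_left _ hx),
              hY1' (Finset.mem_union_left _ (hmB a z haz hx))⟩
          · obtain ⟨hx1, hx2⟩ := Finset.mem_inter.1 hx
            exact Finset.mem_inter.2 ⟨hY1 (Finset.mem_union_right _
              (Finset.mem_inter.2 ⟨Finset.mem_insert_of_mem hx1, hx2⟩)),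
              hY1' (Finset.mem_union_right _ (Finset.mem_inter.2 ⟨hx1, hMU a z haz hx2⟩))⟩
        have h3 := hsub Y Y'
        simp only [hal, hga]
        linarith
      -- layer cake
      set S := Finset.univ.filter (fun a => b ∈ U a ∧ b ∉ B a) with hS
      set Tz := Finset.univ.filter (fun z => b ∈ M z) with hTz
      have h1 := layer w hw R Tz S.card S al ga rfl (fun a _ => hal0 a) (fun z _ => hga0 z)
        (by
          intro S' hS'
          refine hc b S' (fun a ha => (Finset.mem_filter.1 (hS' ha)).2) _ ?_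
          intro z
          simp [hTz])
        (fun a _ z hz haz => hcmp a z haz (Finset.mem_filter.1 hz).2)
      have h2 : ∑ a, w a * al a = ∑ a ∈ S, w a * al a := by
        symm
        apply Finset.sum_subset (Finset.subset_univ _)
        intro a _ ha
        have h3 : B a ∪ (insert b T ∩ U a) = B a ∪ (T ∩ U a) := by
          have h4 : ¬ (b ∈ U a ∧ b ∉ B a) := fun h5 =>
            ha (Finset.mem_filter.2 ⟨Finset.mem_univ _, h5⟩)
          ext x
          simp only [Finset.mem_union, Finset.mem_inter, Finset.mem_insert]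
          constructor
          · rintro (h5 | ⟨rfl | h5, h6⟩)
            · exact Or.inl h5
            · exact Or.inl (by by_contra h7; exact h4 ⟨h6, h7⟩)
            · exact Or.inr ⟨h5, h6⟩
          · rintro (h5 | ⟨h5, h6⟩)
            · exact Or.inl h5
            · exact Or.inr ⟨Or.inr h5, h6⟩
        simp only [hal]
        rw [h3, sub_self, mul_zero]
      have h3 : ∑ z ∈ Tz.filter (fun z => ∃ a ∈ S, R a z), w z * ga z ≤ ∑ z, w z * ga z :=
        Finset.sum_le_sum_of_subset_of_nonneg (Finset.subset_univ _) fun z _ _ =>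
          mul_nonneg (hw z) (hga0 z)
      have e1 : ∑ a, w a * (kk h (B a ∪ (insert b T ∩ U a)) (U a) - h (B a)) =
          ∑ a, w a * (kk h (B a ∪ (T ∩ U a)) (U a) - h (B a)) + ∑ a, w a * al a := by
        rw [← Finset.sum_add_distrib]
        exact Finset.sum_congr rfl fun a _ => by simp only [hal]; ring
      have e2 : ∑ z, w z * (kk h (m z ∪ (insert b T ∩ M z)) (M z) - h (m z)) =
          ∑ z, w z * (kk h (m z ∪ (T ∩ M z)) (M z) - h (m z)) + ∑ z, w z * ga z := by
        rw [← Finset.sum_add_distrib]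
        exact Finset.sum_congr rfl fun a _ => by simp only [hga]; ring
      rw [e1, e2]
      linarith
  have hfin := main Finset.univ
  have e1 : ∀ a, B a ∪ (Finset.univ ∩ U a) = U a := fun a => by
    rw [Finset.univ_inter]
    exact Finset.union_eq_right.2 (hBU a)
  have e2 : ∀ z, m z ∪ (Finset.univ ∩ M z) = M z := fun z => by
    rw [Finset.univ_inter]
    exact Finset.union_eq_right.2 (hmM z)
  simpa only [e1, e2, kk_self] using hfin

end Vale.Agent.P038.H769
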