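import Vale.Agent.P038.H71.Plan
import Vale.Agent.P038.H769.Key

/-!
# P038 (H769): no normal form exists for `lam = 1`

(G) is H71's `plan_lt` (294's inequality), the key inequality is `key` (787).
-/

namespace Vale.Agent.P038.H769

open Finset Vale.Agent.P038.H139 Vale.Agent.P038.H71

universe u

variable {V : Type u} [Fintype V] [DecidableEq V]

/-- `h(Y) = w(N[Y]) - w(Y)`. -/
noncomputable def hh (D : OGraph V) (w : V → ℝ) (Y : Finset V) : ℝ := W w (cl D Y) - W w Y

theorem cl_mono' {D : OGraph V} {S T : Finset V} (h : S ⊆ T) : cl D S ⊆ cl D T := by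
  intro z hz
  rw [mem_cl] at hz ⊢
  rcases hz with hz | ⟨y, hy, hyz⟩
  · exact Or.inl (h hz)
  · exact Or.inr ⟨y, h hy, hyz⟩

theorem sub_cl {D : OGraph V} {S : Finset V} : S ⊆ cl D S := fun _ hz => mem_cl.2 (Or.inl hz)

theorem W_union_inter (w : V → ℝ) (S T : Finset V) :
    W w (S ∪ T) + W w (S ∩ T) = W w S + W w T :=
  Finset.sum_union_inter

theorem hh_sub (D : OGraph V) {w : V → ℝ} (hw : ∀ v, 0 ≤ w v) (A B : Finset V) :
    hh D w (A ∪ B) + hh D w (A ∩ B) ≤ hh D w A + hh D w B := by
  have h1 := W_union_inter w A B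
  have h2 := W_union_inter w (cl D A) (cl D B)
  have h3 : cl D (A ∪ B) = cl D A ∪ cl D B := by
    ext z
    simp only [mem_cl, Finset.mem_union]
    constructor
    · rintro ((h | h) | ⟨y, hy | hy, hyz⟩)
      · exact Or.inl (Or.inl h)
      · exact Or.inr (Or.inl h)
      · exact Or.inl (Or.inr ⟨y, hy, hyz⟩)
      · exact Or.inr (Or.inr ⟨y, hy, hyz⟩)
    · rintro ((h | ⟨y, hy, hyz⟩) | (h | ⟨y, hy, hyz⟩))
      · exact Or.inl (Or.inl h)
      · exact Or.inr ⟨y, Or.inl hy, hyz⟩
      · exact Or.inl (Or.inr h)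
      · exact Or.inr ⟨y, Or.inr hy, hyz⟩
  have h4 : W w (cl D (A ∩ B)) ≤ W w (cl D A ∩ cl D B) :=
    W_mono hw (Finset.subset_inter (cl_mono' Finset.inter_subset_left)
      (cl_mono' Finset.inter_subset_right))
  unfold hh
  rw [h3]
  linarith

/-- (G) in the form used here. -/
theorem hh_lt {D : OGraph V} {w : V → ℝ} (h : NFmin 1 D w) (X : Finset V) (hX : cl D X ≠ X) :
    hh D w (cl D X) < hh D w X := by
  set L := Lx D X with hL
  have hL' : L = outS D X \ X := hL
  have hclX : cl D X = X ∪ L := by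
    ext z
    rw [mem_cl, Finset.mem_union, hL', Finset.mem_sdiff, mem_outS]
    tauto
  have hdis : Disjoint X L := by
    rw [hL']
    exact Finset.disjoint_sdiff
  have hne : L.Nonempty := by
    rw [Finset.nonempty_iff_ne_empty]
    intro he
    rw [he, Finset.union_empty] at hclX
    exact hX hclX
  have h1 := plan_lt h X ∅ (by
    rw [← hL]
    exact Finset.empty_ssubset.2 hne)
  rw [← hL] at h1
  have h0 : dd 1 D w X ∅ = 0 := by
    have : cl D (∅ : Finset V) = ∅ := by
      ext z
      rw [mem_cl]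
      simp
    simp [dd, this, W]
  rw [h0] at h1
  unfold dd at h1
  have hccX : cl D (cl D X) = X ∪ (cl D L \ X) := by
    rw [hclX]
    ext z
    simp only [mem_cl, Finset.mem_union, Finset.mem_sdiff]
    constructor
    · rintro ((h2 | h2) | ⟨y, hy | hy, hyz⟩)
      · exact Or.inl h2
      · by_cases hz : z ∈ X
        · exact Or.inl hz
        · exact Or.inr ⟨Or.inl h2, hz⟩
      · by_cases hz : z ∈ X
        · exact Or.inl hz
        · refine Or.inr ⟨Or.inl ?_, hz⟩
          rw [hL']
          exact Finset.mem_sdiff.2 ⟨mem_outS.2 ⟨y, hy, hyz⟩, hz⟩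
      · by_cases hz : z ∈ X
        · exact Or.inl hz
        · exact Or.inr ⟨Or.inr ⟨y, hy, hyz⟩, hz⟩
    · rintro (h2 | ⟨h2 | ⟨y, hy, hyz⟩, h3⟩)
      · exact Or.inl (Or.inl h2)
      · exact Or.inl (Or.inr h2)
      · exact Or.inr ⟨y, Or.inr hy, hyz⟩
  have e1 : W w (cl D (cl D X)) = W w X + W w (cl D L \ X) := by
    rw [hccX]
    exact W_union Finset.disjoint_sdiff
  have e2 : W w (cl D X) = W w X + W w L := by
    rw [hclX]
    exact W_union hdis
  unfold hh
  rw [e1, e2]
  linarith

theorem hh_le {D : OGraph V} {w : V → ℝ} (h : NFmin 1 D w) (X : Finset V) :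
    hh D w (cl D X) ≤ hh D w X := by
  by_cases hX : cl D X = X
  · rw [hX]
  · exact (hh_lt h X hX).le

/-- Feasible pairs: `N[a] ⊆ B a ⊆ U a` and `U` has no reversed arc. -/
def Feas (D : OGraph V) (B U : V → Finset V) : Prop :=
  (∀ a, a ∈ B a) ∧ (∀ a b, D.arc a b → b ∈ B a) ∧ (∀ a, B a ⊆ U a) ∧
    ∀ y a, D.arc y a → y ∉ U a

/-- `R a z`: `a` is a closed in-neighbour of `z`. -/
def RR (D : OGraph V) (a z : V) : Prop := a = z ∨ D.arc a z

open Classical in
/-- `⋂ U a` over the closed in-neighbours `a` of `z`. -/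
noncomputable def meet (D : OGraph V) (U : V → Finset V) (z : V) : Finset V :=
  Finset.univ.filter fun b => ∀ a, RR D a z → b ∈ U a

theorem mem_meet {D : OGraph V} {U : V → Finset V} {z b : V} :
    b ∈ meet D U z ↔ ∀ a, RR D a z → b ∈ U a := by
  classical
  simp [meet]

/-- The outer cost. -/
noncomputable def cost (D : OGraph V) (w : V → ℝ) (B U : V → Finset V) : ℝ :=
  ∑ a, w a * hh D w (B a) + (∑ a, w a * W w (U a) - ∑ z, w z * W w (meet D U z))

theorem exists_min_cost (D : OGraph V) (w : V → ℝ) :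
    ∃ B U, Feas D B U ∧ ∀ B' U', Feas D B' U' → cost D w B U ≤ cost D w B' U' := by
  classical
  have hfeas : Feas D (fun a => cl D {a}) (fun a => cl D {a}) := by
    refine ⟨fun a => mem_cl.2 (Or.inl (Finset.mem_singleton_self a)),
      fun a b hab => mem_cl.2 (Or.inr ⟨a, Finset.mem_singleton_self a, hab⟩),
      fun a => subset_rfl, fun y a hya hy => ?_⟩
    rw [mem_cl] at hy
    rcases hy with hy | ⟨x, hx, hxy⟩
    · rw [Finset.mem_singleton] at hy
      rw [hy] at hya
      exact D.loopless _ hya
    · rw [Finset.mem_singleton] at hx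
      rw [hx] at hxy
      exact D.asymm _ _ hya hxy
  obtain ⟨⟨B, U⟩, h1, h2⟩ := Set.exists_min_image
    {p : (V → Finset V) × (V → Finset V) | Feas D p.1 p.2} (fun p => cost D w p.1 p.2)
    (Set.toFinite _) ⟨(_, _), hfeas⟩
  exact ⟨B, U, h1, fun B' U' h' => h2 (B', U') h'⟩

section

variable {D : OGraph V} {w : V → ℝ} {B U : V → Finset V}

theorem row_opt (hw : ∀ v, 0 < w v) (hF : Feas D B U)
    (hmin : ∀ B' U', Feas D B' U' → cost D w B U ≤ cost D w B' U') (a : V) (Y : Finset V)
    (h1 : B a ⊆ Y) (h2 : Y ⊆ U a) : hh D w (B a) ≤ hh D w Y := by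
  obtain ⟨f1, f2, f3, f4⟩ := hF
  have h3 := hmin (Function.update B a Y) U ⟨by
      intro x
      by_cases hx : x = a
      · rw [hx, Function.update_self]
        exact h1 (f1 a)
      · rw [Function.update_of_ne hx]
        exact f1 x, by
      intro x y hxy
      by_cases hx : x = a
      · rw [hx, Function.update_self]
        exact h1 (f2 a y (hx ▸ hxy))
      · rw [Function.update_of_ne hx]
        exact f2 x y hxy, by
      intro x
      by_cases hx : x = a
      · rw [hx, Function.update_self]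
        exact h2
      · rw [Function.update_of_ne hx]
        exact f3 x, f4⟩
  unfold cost at h3
  have e1 : ∑ x, w x * hh D w (Function.update B a Y x) =
      ∑ x, w x * hh D w (B x) + (w a * hh D w Y - w a * hh D w (B a)) := by
    have e2 : ∀ x, w x * hh D w (Function.update B a Y x) = w x * hh D w (B x) +
        if x = a then (w a * hh D w Y - w a * hh D w (B a)) else 0 := by
      intro x
      by_cases hx : x = a
      · subst hx
        rw [Function.update_self, if_pos rfl]
        ring
      · rw [Function.update_of_ne hx, if_neg hx, add_zero]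
    rw [Finset.sum_congr rfl fun x _ => e2 x, Finset.sum_add_distrib, Finset.sum_ite_eq']
    simp
  rw [e1] at h3
  have h4 : w a * hh D w (B a) ≤ w a * hh D w Y := by linarith
  exact le_of_mul_le_mul_left h4 (hw a)

theorem col_opt (hw : ∀ v, 0 < w v) (hF : Feas D B U)
    (hmin : ∀ B' U', Feas D B' U' → cost D w B U ≤ cost D w B' U') (b : V) (S : Finset V)
    (hS : ∀ a ∈ S, b ∈ U a ∧ b ∉ B a) (T : Finset V)
    (hT : ∀ z, z ∈ T ↔ b ∈ meet D U z ∧ ∃ a ∈ S, RR D a z) :
    ∑ a ∈ S, w a ≤ ∑ z ∈ T, w z := by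
  obtain ⟨f1, f2, f3, f4⟩ := hF
  set U' : V → Finset V := fun a => if a ∈ S then (U a).erase b else U a with hU'
  have hF' : Feas D B U' := by
    refine ⟨f1, f2, ?_, ?_⟩
    · intro a x hx
      by_cases ha : a ∈ S
      · simp only [hU', if_pos ha]
        refine Finset.mem_erase.2 ⟨?_, f3 a hx⟩
        rintro rfl
        exact (hS a ha).2 hx
      · simp only [hU', if_neg ha]
        exact f3 a hx
    · intro y a hya hy
      by_cases ha : a ∈ S
      · simp only [hU', if_pos ha] at hy
        exact f4 y a hya (Finset.mem_erase.1 hy).2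
      · simp only [hU', if_neg ha] at hy
        exact f4 y a hya hy
  have h1 := hmin B U' hF'
  have hmemU' : ∀ a x, x ∈ U' a ↔ x ∈ U a ∧ ¬ (a ∈ S ∧ x = b) := by
    intro a x
    by_cases ha : a ∈ S
    · simp only [hU', if_pos ha, Finset.mem_erase]
      tauto
    · simp only [hU', if_neg ha]
      tauto
  have e1 : ∑ a, w a * W w (U' a) = ∑ a, w a * W w (U a) - w b * ∑ a ∈ S, w a := by
    have e2 : ∀ a, w a * W w (U' a) = w a * W w (U a) - if a ∈ S then w b * w a else 0 := by
      intro a
      by_cases ha : a ∈ S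
      · have e3 : W w (U a) = w b + W w (U' a) := by
          simp only [hU', if_pos ha]
          exact (Finset.add_sum_erase (U a) w (hS a ha).1).symm
        rw [if_pos ha, e3]
        ring
      · simp only [hU', if_neg ha, sub_zero]
    rw [Finset.sum_congr rfl fun a _ => e2 a, Finset.sum_sub_distrib, Finset.mul_sum,
      Finset.sum_ite_mem, Finset.univ_inter]
  have e2 : ∑ z, w z * W w (meet D U' z) =
      ∑ z, w z * W w (meet D U z) - w b * ∑ z ∈ T, w z := by
    have e3 : ∀ z, w z * W w (meet D U' z) = w z * W w (meet D U z) -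
        if z ∈ T then w b * w z else 0 := by
      intro z
      by_cases hz : z ∈ T
      · obtain ⟨hz1, a, ha, haz⟩ := (hT z).1 hz
        have e4 : meet D U' z = (meet D U z).erase b := by
          ext x
          rw [mem_meet, Finset.mem_erase, mem_meet]
          constructor
          · intro h2
            refine ⟨?_, fun c hc => ((hmemU' c x).1 (h2 c hc)).1⟩
            rintro rfl
            exact ((hmemU' a x).1 (h2 a haz)).2 ⟨ha, rfl⟩
          · rintro ⟨h2, h3⟩ c hc
            exact (hmemU' c x).2 ⟨h3 c hc, fun h4 => h2 h4.2⟩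
        have e5 : W w (meet D U z) = w b + W w (meet D U' z) := by
          rw [e4]
          exact (Finset.add_sum_erase (meet D U z) w hz1).symm
        rw [if_pos hz, e5]
        ring
      · have e4 : meet D U' z = meet D U z := by
          ext x
          rw [mem_meet, mem_meet]
          constructor
          · exact fun h2 c hc => ((hmemU' c x).1 (h2 c hc)).1
          · intro h2 c hc
            refine (hmemU' c x).2 ⟨h2 c hc, ?_⟩
            rintro ⟨hcS, rfl⟩
            exact hz ((hT z).2 ⟨mem_meet.2 h2, c, hcS, hc⟩)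
        rw [e4, if_neg hz, sub_zero]
    rw [Finset.sum_congr rfl fun a _ => e3 a, Finset.sum_sub_distrib, Finset.mul_sum,
      Finset.sum_ite_mem, Finset.univ_inter]
  unfold cost at h1
  rw [e1, e2] at h1
  have h2 : w b * ∑ a ∈ S, w a ≤ w b * ∑ z ∈ T, w z := by linarith
  exact le_of_mul_le_mul_left h2 (hw b)

end

end Vale.Agent.P038.H769
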