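import Vale.Agent.P038.H769.Core

/-!
# P038 (H769): Seymour's second neighbourhood conjecture
-/

namespace Vale.Agent.P038.H769

open Finset Vale.Agent.P038.H139 Vale.Agent.P038.H71

universe u

variable {V : Type u} [Fintype V] [DecidableEq V]

theorem swap (w : V → ℝ) (F G : V → Finset V) (h : ∀ x z, x ∈ F z ↔ z ∈ G x) :
    ∑ z, w z * W w (F z) = ∑ x, w x * W w (G x) := by
  have e : ∀ (S : Finset V), W w S = ∑ x, if x ∈ S then w x else 0 := by
    intro S
    rw [Finset.sum_ite_mem, Finset.univ_inter, W]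
  simp only [e, Finset.mul_sum]
  rw [Finset.sum_comm]
  refine Finset.sum_congr rfl fun x _ => Finset.sum_congr rfl fun z _ => ?_
  by_cases hx : x ∈ F z
  · rw [if_pos hx, if_pos ((h x z).1 hx)]
    ring
  · rw [if_neg hx, if_neg (fun h1 => hx ((h x z).2 h1))]
    ring

/-- The new columns. -/
noncomputable def Yc (D : OGraph V) (U : V → Finset V) (x : V) : Finset V :=
  insert x (Finset.univ.filter fun z => x ∉ cl D (U z))

theorem mem_Yc {D : OGraph V} {U : V → Finset V} {x z : V} :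
    z ∈ Yc D U x ↔ z = x ∨ x ∉ cl D (U z) := by
  simp [Yc]

/-- The new upper rows. -/
noncomputable def Un (D : OGraph V) (U : V → Finset V) (z : V) : Finset V :=
  Finset.univ.filter fun x => z = x ∨ z ∉ cl D (Yc D U x)

theorem mem_Un {D : OGraph V} {U : V → Finset V} {x z : V} :
    x ∈ Un D U z ↔ z = x ∨ z ∉ cl D (Yc D U x) := by
  simp [Un]

section

variable {D : OGraph V} {w : V → ℝ} {B U : V → Finset V}

theorem norev (hF : Feas D B U) {z x : V} (hx : x ∈ cl D (meet D U z)) (hxz : D.arc x z) :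
    False := by
  obtain ⟨f1, f2, f3, f4⟩ := hF
  rw [mem_cl] at hx
  rcases hx with hx | ⟨p, hp, hpx⟩
  · exact f4 x z hxz (mem_meet.1 hx z (Or.inl rfl))
  · exact f4 p x hpx (mem_meet.1 hp x (Or.inr hxz))

theorem meet_sub (hF : Feas D B U) (z : V) : meet D B z ⊆ meet D U z := fun _ hx =>
  mem_meet.2 fun a ha => hF.2.2.1 a (mem_meet.1 hx a ha)

theorem self_mem (hF : Feas D B U) (z : V) : z ∈ meet D B z := by
  refine mem_meet.2 fun a ha => ?_
  rcases ha with rfl | ha
  · exact hF.1 _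
  · exact hF.2.1 a z ha

theorem feas_new (hF : Feas D B U) : Feas D (fun z => cl D (meet D B z)) (Un D U) := by
  refine ⟨fun z => mem_cl.2 (Or.inl (self_mem hF z)),
    fun a b hab => mem_cl.2 (Or.inr ⟨a, self_mem hF a, hab⟩), ?_, ?_⟩
  · intro z x hx
    rw [mem_Un]
    by_contra hcon
    push Not at hcon
    obtain ⟨hzx, hz⟩ := hcon
    obtain ⟨y, hy, hyz⟩ : ∃ y ∈ Yc D U x, RR D y z := by
      rw [mem_cl] at hz
      rcases hz with hz | ⟨y, hy, hyz⟩
      · exact ⟨z, hz, Or.inl rfl⟩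
      · exact ⟨y, hy, Or.inr hyz⟩
    rcases mem_Yc.1 hy with rfl | hy
    · rcases hyz with hyz | hyz
      · exact hzx hyz.symm
      · exact norev hF (cl_mono' (meet_sub hF z) hx) hyz
    · refine hy (cl_mono' ?_ hx)
      intro b hb
      exact hF.2.2.1 y (mem_meet.1 hb y hyz)
  · intro y a hya hy
    rcases mem_Un.1 hy with rfl | hy
    · exact D.loopless _ hya
    · exact hy (mem_cl.2 (Or.inr ⟨y, mem_Yc.2 (Or.inl rfl), hya⟩))

/-- (S1). -/
theorem cost_new (hw : ∀ v, 0 ≤ w v) (hF : Feas D B U) :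
    ∑ z, w z * W w (Un D U z) - ∑ z, w z * W w (meet D (Un D U) z) ≤
      ∑ x, w x * hh D w (cl D (Yc D U x)) := by
  have hF' := feas_new hF
  have e1 : ∑ z, w z * W w (Un D U z) =
      ∑ x, w x * W w (insert x (Finset.univ \ cl D (Yc D U x))) := by
    apply swap
    intro x z
    rw [mem_Un, Finset.mem_insert, Finset.mem_sdiff]
    simp
  have e2 : ∑ z, w z * W w (meet D (Un D U) z) =
      ∑ x, w x * W w (Finset.univ.filter fun z => x ∈ meet D (Un D U) z) := by
    apply swap
    intro x z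
    simp
  have hx1 : ∀ x, x ∈ cl D (Yc D U x) := fun x => mem_cl.2 (Or.inl (mem_Yc.2 (Or.inl rfl)))
  have e3 : ∀ x, W w (insert x (Finset.univ \ cl D (Yc D U x))) =
      w x + (W w Finset.univ - W w (cl D (Yc D U x))) := by
    intro x
    rw [W, Finset.sum_insert (fun h => (Finset.mem_sdiff.1 h).2 (hx1 x)),
      ← W_sdiff (Finset.subset_univ _)]
    rfl
  have e4 : ∀ x, w x + (W w Finset.univ - W w (cl D (cl D (Yc D U x)))) ≤
      W w (Finset.univ.filter fun z => x ∈ meet D (Un D U) z) := by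
    intro x
    have h1 : W w (insert x (Finset.univ \ cl D (cl D (Yc D U x)))) =
        w x + (W w Finset.univ - W w (cl D (cl D (Yc D U x)))) := by
      rw [W, Finset.sum_insert (fun h => (Finset.mem_sdiff.1 h).2 (sub_cl (hx1 x))),
        ← W_sdiff (Finset.subset_univ _)]
      rfl
    rw [← h1]
    refine W_mono hw ?_
    intro z hz
    refine Finset.mem_filter.2 ⟨Finset.mem_univ _, mem_meet.2 fun a ha => ?_⟩
    rcases Finset.mem_insert.1 hz with rfl | hz
    · refine hF'.2.2.1 a ?_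
      rcases ha with rfl | ha
      · exact hF'.1 _
      · exact hF'.2.1 a _ ha
    · refine mem_Un.2 (Or.inr fun h2 => (Finset.mem_sdiff.1 hz).2 ?_)
      rcases ha with rfl | ha
      · exact sub_cl h2
      · exact mem_cl.2 (Or.inr ⟨a, h2, ha⟩)
  rw [e1, e2, ← Finset.sum_sub_distrib]
  refine Finset.sum_le_sum fun x _ => ?_
  rw [← mul_sub]
  refine mul_le_mul_of_nonneg_left ?_ (hw x)
  rw [e3 x]
  unfold hh
  linarith [e4 x]

/-- (S2). -/
theorem col_new (hw : ∀ v, 0 ≤ w v) (hF : Feas D B U) :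
    ∑ x, w x * hh D w (Yc D U x) ≤
      ∑ z, w z * W w (cl D (U z)) - ∑ z, w z * W w (cl D (meet D U z)) := by
  have hxx : ∀ x, x ∈ cl D (U x) := fun x => mem_cl.2 (Or.inl (hF.2.2.1 x (hF.1 x)))
  have e1 : ∀ x, W w (Yc D U x) = w x + W w (Finset.univ.filter fun z => x ∉ cl D (U z)) := by
    intro x
    have hnot : x ∉ Finset.univ.filter (fun z => x ∉ cl D (U z)) :=
      fun h => (Finset.mem_filter.1 h).2 (hxx x)
    rw [Yc, W, Finset.sum_insert hnot]
    rfl
  have e2 : ∑ x, w x * W w (Finset.univ.filter fun z => x ∉ cl D (U z)) =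
      ∑ z, w z * W w (Finset.univ \ cl D (U z)) := by
    apply swap
    intro x z
    simp
  have e3 : ∀ z, W w (Finset.univ \ cl D (U z)) = W w Finset.univ - W w (cl D (U z)) :=
    fun z => W_sdiff (Finset.subset_univ _)
  have e4 : ∑ z, w z * W w (cl D (meet D U z)) =
      ∑ x, w x * W w (Finset.univ.filter fun z => x ∈ cl D (meet D U z)) := by
    apply swap
    intro x z
    simp
  have e5 : ∀ x, W w (cl D (Yc D U x)) +
      W w (Finset.univ.filter fun z => x ∈ cl D (meet D U z)) ≤ W w Finset.univ + w x := by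
    intro x
    rw [← W_union_inter]
    have h1 : W w (cl D (Yc D U x) ∪ Finset.univ.filter fun z => x ∈ cl D (meet D U z)) ≤
        W w Finset.univ := W_mono hw (Finset.subset_univ _)
    have h2 : W w (cl D (Yc D U x) ∩ Finset.univ.filter fun z => x ∈ cl D (meet D U z)) ≤
        W w {x} := by
      refine W_mono hw ?_
      intro z hz
      obtain ⟨hz1, hz2⟩ := Finset.mem_inter.1 hz
      have hz3 := (Finset.mem_filter.1 hz2).2
      rw [Finset.mem_singleton]
      by_contra hne
      obtain ⟨y, hy, hyz⟩ : ∃ y ∈ Yc D U x, RR D y z := by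
        rw [mem_cl] at hz1
        rcases hz1 with hz1 | ⟨y, hy, hyz⟩
        · exact ⟨z, hz1, Or.inl rfl⟩
        · exact ⟨y, hy, Or.inr hyz⟩
      rcases mem_Yc.1 hy with rfl | hy
      · rcases hyz with hyz | hyz
        · exact hne hyz.symm
        · exact norev hF hz3 hyz
      · refine hy (cl_mono' ?_ hz3)
        intro b hb
        exact mem_meet.1 hb y hyz
    have h3 : W w {x} = w x := Finset.sum_singleton _ _
    linarith
  have h1 : ∑ x, w x * W w (cl D (Yc D U x)) +
      ∑ x, w x * W w (Finset.univ.filter fun z => x ∈ cl D (meet D U z)) ≤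
      ∑ x, w x * (W w Finset.univ + w x) := by
    rw [← Finset.sum_add_distrib]
    refine Finset.sum_le_sum fun x _ => ?_
    rw [← mul_add]
    exact mul_le_mul_of_nonneg_left (e5 x) (hw x)
  have h2 : ∑ x, w x * W w (Yc D U x) =
      ∑ x, w x * w x + ∑ z, w z * (W w Finset.univ - W w (cl D (U z))) := by
    simp only [e1, mul_add, Finset.sum_add_distrib]
    rw [e2]
    simp only [e3]
  have h3 : ∑ x, w x * hh D w (Yc D U x) =
      ∑ x, w x * W w (cl D (Yc D U x)) - ∑ x, w x * W w (Yc D U x) := by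
    rw [← Finset.sum_sub_distrib]
    exact Finset.sum_congr rfl fun x _ => by unfold hh; ring
  rw [h3, h2, e4]
  simp only [mul_add, mul_sub, Finset.sum_add_distrib, Finset.sum_sub_distrib] at h1 ⊢
  linarith

end

/-- No normal form with the fewest arcs. -/
theorem no_nfmin [Nonempty V] {D : OGraph V} {w : V → ℝ} (h : NFmin 1 D w) : False := by
  have hw : ∀ v, 0 < w v := h.toNF.pos
  have hw0 : ∀ v, 0 ≤ w v := fun v => (hw v).le
  obtain ⟨B, U, hF, hmin⟩ := exists_min_cost D w
  have hkey := key (hh D w) (hh_sub D hw0) w hw0 (RR D) (fun z => Or.inl rfl) B U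
    (meet D B) (meet D U) hF.2.2.1 (fun z b => mem_meet) (fun z b => mem_meet)
    (fun a Y h1 h2 => row_opt hw hF hmin a Y h1 h2)
    (fun b S hS T hT => col_opt hw hF hmin b S hS T hT)
  have h1 := hmin _ _ (feas_new hF)
  have h2 := cost_new hw0 hF
  have h3 := col_new hw0 hF
  have h4 : ∑ x, w x * hh D w (cl D (Yc D U x)) ≤ ∑ x, w x * hh D w (Yc D U x) :=
    Finset.sum_le_sum fun x _ => mul_le_mul_of_nonneg_left (hh_le h _) (hw0 x)
  have e1 : ∑ z, w z * W w (cl D (U z)) = ∑ z, w z * hh D w (U z) + ∑ z, w z * W w (U z) := by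
    rw [← Finset.sum_add_distrib]
    exact Finset.sum_congr rfl fun x _ => by unfold hh; ring
  have e2 : ∑ z, w z * W w (cl D (meet D U z)) =
      ∑ z, w z * hh D w (meet D U z) + ∑ z, w z * W w (meet D U z) := by
    rw [← Finset.sum_add_distrib]
    exact Finset.sum_congr rfl fun x _ => by unfold hh; ring
  simp only [mul_sub, Finset.sum_sub_distrib] at hkey
  unfold cost at h1
  have h5 : ∑ z, w z * hh D w (meet D B z) ≤ ∑ z, w z * hh D w (cl D (meet D B z)) := by
    linarith
  have hclosed : ∀ z, cl D (meet D B z) = meet D B z := by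
    by_contra hcon
    push Not at hcon
    obtain ⟨z, hz⟩ := hcon
    have h6 : ∑ z, w z * hh D w (cl D (meet D B z)) < ∑ z, w z * hh D w (meet D B z) :=
      Finset.sum_lt_sum (fun x _ => mul_le_mul_of_nonneg_left (hh_le h _) (hw0 x))
        ⟨z, Finset.mem_univ _, mul_lt_mul_of_pos_left (hh_lt h _ hz) (hw z)⟩
    linarith
  -- a minimal nonempty closed set
  obtain ⟨K, hK, hKmin⟩ := Set.exists_min_image
    {K : Finset V | K.Nonempty ∧ ∀ a b, a ∈ K → D.arc a b → b ∈ K} Finset.card (Set.toFinite _)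
    ⟨Finset.univ, Finset.univ_nonempty, fun _ b _ _ => Finset.mem_univ b⟩
  obtain ⟨⟨a, ha⟩, hKc⟩ := hK
  obtain ⟨b, hab⟩ : ∃ b, D.arc a b := by
    by_contra hcon
    push Not at hcon
    have h6 := h.toNF.one a
    have h7 : N1 D a = ∅ := by
      rw [Finset.eq_empty_iff_forall_notMem]
      intro x hx
      exact hcon x (mem_N1.1 hx)
    unfold Fw at h6
    rw [h7] at h6
    have h8 := W_nonneg hw0 (N2 D a)
    have h9 : W w (∅ : Finset V) = 0 := Finset.sum_empty
    rw [h9] at h6
    linarith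
  have hbK := hKc a b ha hab
  have hK' : meet D B b ∩ K ∈
      {K : Finset V | K.Nonempty ∧ ∀ a b, a ∈ K → D.arc a b → b ∈ K} := by
    refine ⟨⟨b, Finset.mem_inter.2 ⟨self_mem hF b, hbK⟩⟩, ?_⟩
    intro x y hx hxy
    obtain ⟨hx1, hx2⟩ := Finset.mem_inter.1 hx
    refine Finset.mem_inter.2 ⟨?_, hKc x y hx2 hxy⟩
    rw [← hclosed b]
    exact mem_cl.2 (Or.inr ⟨x, hx1, hxy⟩)
  have h6 := hKmin _ hK'
  have h7 : meet D B b ∩ K = K := Finset.eq_of_subset_of_card_le Finset.inter_subset_right h6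
  have h8 : a ∈ meet D B b ∩ K := by
    rw [h7]
    exact ha
  have h9 := mem_meet.1 (Finset.mem_inter.1 h8).1 b (Or.inl rfl)
  exact hF.2.2.2 a b hab (hF.2.2.1 b h9)

/-- Seymour's second neighbourhood conjecture, weighted form. -/
theorem weighted {V : Type u} [Fintype V] [Nonempty V] (D : OGraph V) (w : V → ℝ)
    (hw : ∀ v, 0 ≤ w v) : ∃ v, ∑ u ∈ N1 D v, w u ≤ ∑ u ∈ N2 D v, w u := by
  have h := snc_of_noNF (lam := 1) zero_le_one (fun V _ _ D w hNF => by
    classical
    obtain ⟨D', w', h'⟩ := exists_nfmin hNF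
    exact no_nfmin h') D w hw
  simpa using h

/-- Seymour's second neighbourhood conjecture. -/
theorem seymour {V : Type u} [Fintype V] [Nonempty V] (D : OGraph V) :
    ∃ v, (N1 D v).card ≤ (N2 D v).card := by
  obtain ⟨v, hv⟩ := weighted D (fun _ => 1) (fun _ => zero_le_one)
  refine ⟨v, ?_⟩
  simp only [Finset.sum_const, nsmul_eq_mul, mul_one] at hv
  exact_mod_cast hv

end Vale.Agent.P038.H769

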